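import Vale.Agent.P039.SquareMerge

/-!
P039: cubic graphs whose vertices split into quadrilaterals are Hamiltonian.
-/

namespace Vale.Agent.Results.P039.QuadClassHamiltonian

open scoped Classical in
theorem result : ∀ (V : Type) [Fintype V] (G : SimpleGraph V), G.Connected →
    (∀ v, G.degree v = 3) →
    (∃ σ : V → V, ∀ v, σ (σ (σ (σ v))) = v ∧ σ (σ v) ≠ v ∧ G.Adj v (σ v)) →
    G.IsHamiltonian := by
  intro V _ G hc h3 ⟨σ, h⟩
  exact Vale.Agent.P039.hamiltonian_of_squares G hc h3 σ (fun v => (h v).1) (fun v => (h v).2.1)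
    (fun v => (h v).2.2)

end Vale.Agent.Results.P039.QuadClassHamiltonian
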